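import Vale.Agent.P284.H661.Haar3

/-!
# P284 (helper15), FLAT-LIM: push-forward of an invariant density, dominated by Lebesgue measure

`ρ ≥ 0` a continuous density on the base, `F` holomorphic with discrete periods. If
`∫ ρ · (∂_v φ)(F) = 0` for all smooth periodic `φ` and all `v`, the push-forward of `ρ` is at most a
constant times Lebesgue measure.
-/

open scoped Manifold ContDiff Topology Pointwise ComplexConjugate ComplexOrder Matrix ENNReal
open Filter Set Metric MeasureTheory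

noncomputable section

namespace Vale.Agent.P284.H15.FL

open Vale.Agent.P272.K Vale.Agent.P272.K.C2 Vale.Agent.P284.H248 Vale.Agent.P284.H894
  Vale.Agent.P284.H894.V Vale.Agent.P284.H639.V Vale.Agent.P284.H66 Vale.Agent.P284.H913.V
  Vale.Agent.P284.H66.S7 Vale.Agent.P284.H661

section glob
variable {n N : ℕ} {Γ : Type} [Group Γ] {C : Coc n Γ} {p q : Matrix (Fin N) (Fin N) ℂ}
  (D : Dat C p q) (P : PU C) (K : KM C) {ρ : C.I → Cm n → ℝ}

/-- the density of the total push-forward on the piece `a` -/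
def rg (ρ : C.I → Cm n → ℝ) (a : C.I) (z : Cm n) : ℝ := P.χ a a z * ρ a z * vol (K.w a) z

theorem rg_cont (hρ : BD C ρ) (a : C.I) : ContinuousOn (rg P K ρ a) (C.Ω a) :=
  ((chi_cont P a a).mul (hρ.cont a)).mul (vol_cont K a)

theorem rg_nonneg (h0 : ∀ a, ∀ z ∈ C.Ω a, 0 ≤ ρ a z) (a : C.I) :
    ∀ z ∈ C.V a, 0 ≤ rg P K ρ a z := fun _ hz =>
  mul_nonneg (mul_nonneg (P.nonneg a a _) (h0 a _ (V_sub_Ω C a hz))) (vol_nn K (V_sub_Ω C a hz))

theorem dvg_cont (hρ : BD C ρ) (a : C.I) :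
    ContinuousOn (fun z => ρ a z * vol (K.w a) z) (C.Ω a) := (hρ.cont a).mul (vol_cont K a)

theorem dvg_nonneg (h0 : ∀ a, ∀ z ∈ C.Ω a, 0 ≤ ρ a z) (a : C.I) :
    ∀ z ∈ C.V a, 0 ≤ ρ a z * vol (K.w a) z := fun _ hz =>
  mul_nonneg (h0 a _ (V_sub_Ω C a hz)) (vol_nn K (V_sub_Ω C a hz))

/-- the total push-forward -/
def mg (ρ : C.I → Cm n → ℝ) : Measure (Cm N) := ∑ a, pm D a (rg P K ρ a)

theorem mg_fin (hρ : BD C ρ) : IsFiniteMeasure (mg D P K ρ) := by
  have : ∀ a, IsFiniteMeasure (pm D a (rg P K ρ a)) := fun a => pm_fin D (rg_cont P K hρ a)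
  refine ⟨?_⟩
  rw [mg, Measure.finsetSum_apply]
  exact ENNReal.sum_lt_top.2 fun a _ => measure_lt_top _ _

theorem mg_car (hρ : BD C ρ) : mg D P K ρ (car D)ᶜ = 0 := by
  rw [mg, Measure.finsetSum_apply]
  refine Finset.sum_eq_zero fun a _ => measure_mono_null ?_ (pm_carrier D (rg_cont P K hρ a))
  exact compl_subset_compl.2 (subset_iUnion (fun a : C.I =>
    D.F 1 a '' closedBall (C.c a) (3 * C.r a)) a)

theorem mg_int (hρ : BD C ρ) (h0 : ∀ a, ∀ z ∈ C.Ω a, 0 ≤ ρ a z) {φ : Cm N → ℝ}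
    (hφ : Continuous φ) :
    ∫ y, φ y ∂(mg D P K ρ) = BInt P K (fun a z => ρ a z * φ (D.F 1 a z)) := by
  have h1 : ∀ a ∈ Finset.univ, Integrable φ (pm D a (rg P K ρ a)) := by
    intro a _
    have := pm_fin D (rg_cont P K hρ a)
    exact Hm.int_of_compact ((isCompact_closedBall _ _).image_of_continuousOn
      ((D.hol 1 a).continuousOn.mono (closed_sub_Ω C a))) (pm_carrier D (rg_cont P K hρ a)) hφ
  rw [mg, integral_finsetSum_measure h1, BInt]
  refine Finset.sum_congr rfl fun a _ => ?_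
  rw [pm_int D (rg_cont P K hρ a) (rg_nonneg P K h0 a) hφ]
  refine setIntegral_congr_fun measurableSet_ball fun z _ => ?_
  simp only [rg]
  ring

theorem rho_BD (hρ : BD C ρ) {φ : Cm N → ℝ} (hφ : Continuous φ)
    (hper : ∀ g t, φ (t + D.c g) = φ t) : BD C (fun a z => ρ a z * φ (D.F 1 a z)) where
  cont a := (hρ.cont a).mul (hφ.comp_continuousOn (D.hol 1 a).continuousOn)
  compat a b z hz hz1 hz2 := by rw [hρ.compat a b z hz hz1 hz2, phi_F_change D hper hz]

include P in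
theorem haar_gen (hfin : ∀ R : ℝ, {v : Cm N | (∃ g, D.c g = v) ∧ ‖v‖ ≤ R}.Finite)
    (hρ : BD C ρ) (h0 : ∀ a, ∀ z ∈ C.Ω a, 0 ≤ ρ a z)
    (hd : ∀ φ : Cm N → ℝ, ContDiff ℝ ∞ φ → (∀ g t, φ (t + D.c g) = φ t) → ∀ v,
      BInt P K (fun a z => ρ a z * fderiv ℝ φ (D.F 1 a z) v) = 0) :
    ∃ A : ℝ≥0∞, A ≠ ⊤ ∧ ∀ (a : C.I) (s : Cm N → ℝ≥0∞), Measurable s →
      ∫⁻ z in C.V a, s (D.F 1 a z) * ENNReal.ofReal (ρ a z * vol (K.w a) z) ≤
        A * ∫⁻ y, s y := by
  have := mg_fin D P K hρ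
  obtain ⟨A, hA, hdom⟩ := Hm.dominated (volume : Measure (Cm N)) (H661.per D) hfin
    (μ := mg D P K ρ) (car_compact D) (mg_car D P K hρ) (fun φ hφ hper v => by
      have h1 : ∀ g t, φ (t + D.c g) = φ t := fun g t => hper _ ⟨g, rfl⟩ t
      have h2 : Continuous fun t => fderiv ℝ φ t v :=
        (hφ.continuous_fderiv (by simp)).clm_apply continuous_const
      rw [mg_int D P K hρ h0 h2]
      exact hd φ hφ h1 v)
  refine ⟨A, hA, fun a s hs => ?_⟩
  have hfa := pm_fin D (dvg_cont K hρ a)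
  have h1 : pm D a (fun z => ρ a z * vol (K.w a) z) ≤ A • volume := by
    refine hdom _ fun φ hφ hper h0' => ?_
    have hp : ∀ g t, φ (t + D.c g) = φ t := fun g t => hper _ ⟨g, rfl⟩ t
    rw [← ofReal_integral_eq_lintegral_ofReal (Hm.int_of_compact
      ((isCompact_closedBall _ _).image_of_continuousOn
      ((D.hol 1 a).continuousOn.mono (closed_sub_Ω C a))) (pm_carrier D (dvg_cont K hρ a))
        hφ.continuous) (Eventually.of_forall h0'),
      ← ofReal_integral_eq_lintegral_ofReal (Hm.int_of_compact (car_compact D) (mg_car D P K hρ)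
        hφ.continuous) (Eventually.of_forall h0')]
    refine ENNReal.ofReal_le_ofReal ?_
    rw [pm_int D (dvg_cont K hρ a) (dvg_nonneg K h0 a) hφ.continuous,
      mg_int D P K hρ h0 hφ.continuous]
    have h2 := (rho_BD D hρ hφ.continuous hp).le P K
      (fun b z hz => mul_nonneg (h0 b z hz) (h0' _)) a
    refine le_trans (le_of_eq ?_) h2
    exact setIntegral_congr_fun measurableSet_ball fun z _ => by ring
  rw [← pm_lint D (dvg_cont K hρ a) hs]
  calc ∫⁻ y, s y ∂(pm D a fun z => ρ a z * vol (K.w a) z)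
      ≤ ∫⁻ y, s y ∂(A • (volume : Measure (Cm N))) := lintegral_mono' h1 le_rfl
    _ = A * ∫⁻ y, s y := by rw [lintegral_smul_measure, smul_eq_mul]

end glob

end Vale.Agent.P284.H15.FL
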