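import Vale.Agent.P284.H15.FL.HaarG
import Vale.Agent.P284.H650.Flat

/-!
# P284 (helper15), FLAT-LIM: the push-forward of the limit density is dominated by Lebesgue measure
-/

open scoped Manifold ContDiff Topology Pointwise ComplexConjugate ComplexOrder Matrix ENNReal
open Filter Set Metric MeasureTheory

noncomputable section

namespace Vale.Agent.P284.H15.FL

open Vale.Agent.P272.K Vale.Agent.P272.K.C2 Vale.Agent.P284.H248 Vale.Agent.P284.H894
  Vale.Agent.P284.H894.V Vale.Agent.P284.H639.V Vale.Agent.P284.H66 Vale.Agent.P284.H913.V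
  Vale.Agent.P284.H66.S7 Vale.Agent.P284.H661 Vale.Agent.P284.H402.A Vale.Agent.P284.H650

section
variable {n q : ℕ} {Γ : Type} [Group Γ] {C : Coc n Γ}

/-- a sequence of test functions with asymptotically flat energy -/
structure FlatSeq (P : PU C) (K : KM C) (θ : HF C q) (F : Γ → C.I → Cm n → Cm q)
    (U : Filter ℕ) (f : ℕ → Γ → C.I → Cm n → ℝ) : Prop where
  tst : ∀ k, IsTst C (f k)
  pos : ∀ k, 0 < en P K θ 0 (f k) (f k)
  flat : ∀ φ : Cm q → ℝ, ContDiff ℝ ∞ φ → (∃ B, ∀ t, |φ t| ≤ B) → ∀ (j : Fin q) (c : ℂ),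
    Tendsto (fun k => Int P K (fun γ a z => (c * dz j (fun t => (φ t : ℂ)) (F γ a z)).re *
      vA K θ 0 (f k) (f k) γ a z) / en P K θ 0 (f k) (f k)) U (𝓝 0)

/-- the sequence of helper402's `APPc` has asymptotically flat energy (helper650's inequality) -/
theorem flatSeq_of_app {P : PU C} {K : KM C} {θ : HF C q} {F : Γ → C.I → Cm n → Cm q}
    (hF : HolF C F) (hθ : ∀ γ a, ∀ z ∈ C.Ω a, θ.th a z = (JF (F γ a) z)ᵀ) (hq : q < n)
    {U : Filter ℕ} {f m : ℕ → Γ → C.I → Cm n → ℝ} {s ε r : ℕ → ℝ} {c₀ : ℝ}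
    (hf : ∀ k, IsTst C (f k)) (hm : ∀ k, Fam C (m k)) (hpos : ∀ k, 0 < en P K θ 0 (f k) (f k))
    (hbm : ∀ k, ∀ γ a, ∀ z ∈ C.Ω a, 0 ≤ oA K θ (f k) γ a z ∧ 0 ≤ bA K θ (f k) γ a z ∧
      oA K θ (f k) γ a z + bA K θ (f k) γ a z ≤ m k γ a z)
    (hs : ∀ k, 1 ≤ s k) (hε : ∀ k, 0 < ε k) (hr : ∀ k, 0 ≤ r k)
    (h : ∀ k, ip P K θ 0 (f k) (f k) + s k ^ 2 * Int P K (pA K θ (f k)) +
      (ε k)⁻¹ * (Int P K (eA K θ (f k)) + s k * Int P K (m k) + r k) ≤
        c₀ * (s k * en P K θ 0 (f k) (f k)))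
    (hlim : Tendsto ε U (𝓝 0)) : FlatSeq P K θ F U f where
  tst := hf
  pos := hpos
  flat φ hφ hB j c := by
    obtain ⟨B, hB⟩ := hB
    have h1 : ∀ k, |Int P K (fun γ a z => (c * dz j (fun t => (φ t : ℂ)) (F γ a z)).re *
        vA K θ 0 (f k) (f k) γ a z) / en P K θ 0 (f k) (f k)| ≤
        B * ‖c‖ * ((3 * c₀ + 1) / 2 * Real.sqrt (ε k)) := by
      intro k
      have h2 := flat_app P hF hθ hq hφ hB j c (hf k) (hm k) (hbm k) (hs k) (hε k) (hr k) (h k)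
      rw [abs_div, abs_of_pos (hpos k), div_le_iff₀ (hpos k)]
      exact h2
    have h3 : Tendsto (fun k => B * ‖c‖ * ((3 * c₀ + 1) / 2 * Real.sqrt (ε k))) U (𝓝 0) := by
      have h4 := (Real.continuous_sqrt.tendsto 0).comp hlim
      rw [Real.sqrt_zero] at h4
      have h5 := (h4.const_mul ((3 * c₀ + 1) / 2)).const_mul (B * ‖c‖)
      simpa using h5
    exact squeeze_zero_norm (fun k => by rw [Real.norm_eq_abs]; exact h1 k) h3

theorem fam_mul_inv {h G : Γ → C.I → Cm n → ℝ} (hc : ∀ γ a, ContinuousOn (h γ a) (C.Ω a))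
    (hcomp : ∀ γ a b, ∀ z ∈ C.O a b, h γ a z = h (γ * C.κ a b z) b (C.T a b z)) (hG : Fam C G) :
    Fam C (fun γ a z => h γ a z * G γ a z) where
  cont γ a := (hc γ a).mul (hG.cont γ a)
  compat γ a b z hz := by rw [hcomp γ a b z hz, hG.compat γ a b z hz]
  fin := by
    refine hG.fin.subset ?_
    rintro γ ⟨a, z, hz, h1⟩
    exact ⟨a, z, hz, right_ne_zero_of_mul h1⟩

theorem fam_zero : Fam C (fun _ _ _ => (0 : ℝ)) where
  cont γ a := continuousOn_const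
  compat γ a b z hz := rfl
  fin := by simp

theorem Int_sum {P : PU C} {K : KM C} {ι : Type} (t : Finset ι) {G : ι → Γ → C.I → Cm n → ℝ}
    (hG : ∀ i ∈ t, Fam C (G i)) : Fam C (fun γ a z => ∑ i ∈ t, G i γ a z) ∧
      Int P K (fun γ a z => ∑ i ∈ t, G i γ a z) = ∑ i ∈ t, Int P K (G i) := by
  classical
  induction t using Finset.induction_on with
  | empty =>
    refine ⟨by simpa using fam_zero, ?_⟩
    have e : Int P K (fun _ _ _ => (0 : ℝ)) = 0 := by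
      simp [Vale.Agent.P284.H894.V.Int]
    exact e
  | insert i t hi ih =>
    obtain ⟨h1, h2⟩ := ih fun j hj => hG j (Finset.mem_insert_of_mem hj)
    have h3 := hG i (Finset.mem_insert_self i t)
    have e : (fun γ a z => ∑ j ∈ insert i t, G j γ a z) =
        fun γ a z => 1 * G i γ a z + 1 * ∑ j ∈ t, G j γ a z := by
      funext γ a z
      rw [Finset.sum_insert hi]; ring
    rw [e, Finset.sum_insert hi]
    refine ⟨fam_lin h3 h1 1 1, ?_⟩
    rw [H913.V.v3Stmt.lin C P K _ _ 1 1 h3 h1, h2]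
    ring

variable {P : PU C} {K : KM C} {θ : HF C q} {F : Γ → C.I → Cm n → Cm q}
  {U : Filter ℕ} {f : ℕ → Γ → C.I → Cm n → ℝ}

theorem FlatSeq.fd (hS : FlatSeq P K θ F U f) (hF : HolF C F) {φ : Cm q → ℝ}
    (hφ : ContDiff ℝ ∞ φ) (hB : ∃ B, ∀ t, |φ t| ≤ B) (v : Cm q) :
    Tendsto (fun k => Int P K (fun γ a z => fderiv ℝ φ (F γ a z) v *
      vA K θ 0 (f k) (f k) γ a z) / en P K θ 0 (f k) (f k)) U (𝓝 0) := by
  have hdz : ∀ j : Fin q, Continuous fun t => dz j (fun t => (φ t : ℂ)) t := by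
    intro j
    have h1 : Continuous fun t => fderiv ℝ (fun t => (φ t : ℂ)) t := by
      have h2 : ContDiff ℝ ∞ (fun t => (φ t : ℂ)) := Complex.ofRealCLM.contDiff.comp hφ
      exact h2.continuous_fderiv (by simp)
    unfold dz
    exact ((h1.clm_apply continuous_const).sub (continuous_const.mul
      (h1.clm_apply continuous_const))).div_const _
  have hfam : ∀ k, ∀ j ∈ (Finset.univ : Finset (Fin q)), Fam C (fun γ a z =>
      (2 * v j * dz j (fun t => (φ t : ℂ)) (F γ a z)).re * vA K θ 0 (f k) (f k) γ a z) := by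
    intro k j _
    refine fam_mul_inv (h := fun γ a z => (2 * v j * dz j (fun t => (φ t : ℂ)) (F γ a z)).re)
      (fun γ a => ?_) (fun γ a b z hz => ?_) (fam_vA (hS.tst k) (hS.tst k) K θ 0)
    · exact Complex.continuous_re.comp_continuousOn (continuousOn_const.mul
        ((hdz j).comp_continuousOn (hF.hol γ a).continuousOn))
    · rw [hF.compat γ a b z hz]
  have e : ∀ k, Int P K (fun γ a z => fderiv ℝ φ (F γ a z) v * vA K θ 0 (f k) (f k) γ a z) =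
      ∑ j, Int P K (fun γ a z => (2 * v j * dz j (fun t => (φ t : ℂ)) (F γ a z)).re *
        vA K θ 0 (f k) (f k) γ a z) := by
    intro k
    rw [← (Int_sum (P := P) (K := K) Finset.univ (hfam k)).2]
    congr 1
    funext γ a z
    rw [← Finset.sum_mul]
    congr 1
    rw [← two_re_dz (hφ.differentiable (by simp)).differentiableAt v, Complex.re_sum]
    refine Finset.sum_congr rfl fun j _ => ?_
    congr 1
    ring
  have h2 := tendsto_finsetSum (Finset.univ : Finset (Fin q)) fun j _ =>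
    hS.flat φ hφ hB j (2 * v j)
  simp only [Finset.sum_const_zero] at h2
  refine h2.congr fun k => ?_
  rw [e, Finset.sum_div]

/-- the limit density of the energies -/
structure LimD (P : PU C) (K : KM C) (θ : HF C q) (U : Filter ℕ) (f : ℕ → Γ → C.I → Cm n → ℝ)
    (ρ : C.I → Cm n → ℝ) : Prop where
  bd : BD C ρ
  nn : ∀ a, ∀ z ∈ C.Ω a, 0 ≤ ρ a z
  lim : ∀ a (ψ : Cm n → ℝ), ContinuousOn ψ (C.Ω a) →
    Tendsto (fun k => (∑' γ, ∫ z in C.V a, ψ z * vA K θ 0 (f k) (f k) γ a z) /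
      en P K θ 0 (f k) (f k)) U (𝓝 (∫ z in C.V a, ψ z * ρ a z))

theorem Int_swap {h : C.I → Cm n → ℝ} {G : Γ → C.I → Cm n → ℝ} (hG : Fam C G) :
    Int P K (fun γ a z => h a z * G γ a z) =
      ∑ a, ∑' γ, ∫ z in C.V a, (P.χ a a z * h a z * vol (K.w a) z) * G γ a z := by
  unfold Vale.Agent.P284.H894.V.Int
  have hfin : ∀ a, (Function.support fun γ =>
      ∫ z in C.V a, (P.χ a a z * h a z * vol (K.w a) z) * G γ a z).Finite := by
    intro a
    refine hG.fin.subset fun γ hγ => ?_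
    by_contra hcon
    apply hγ
    simp only [mem_ofPred_eq, not_exists, not_and, not_not] at hcon
    simp only
    rw [setIntegral_congr_fun (g := fun _ => (0 : ℝ)) (isOpen_V C a).measurableSet fun z hz => by
      simp only [hcon a z hz, mul_zero]]
    simp
  rw [← Summable.tsum_finsetSum fun a _ => summable_of_hasFiniteSupport (hfin a)]
  refine tsum_congr fun γ => Finset.sum_congr rfl fun a _ => ?_
  refine setIntegral_congr_fun (isOpen_V C a).measurableSet fun z _ => ?_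
  simp only
  ring

theorem LimD.int {ρ : C.I → Cm n → ℝ} (hL : LimD P K θ U f ρ) (hS : FlatSeq P K θ F U f) (hF : HolF C F)
    {c : Γ → Cm q} (heq : ∀ g γ a, ∀ z ∈ C.Ω a, F (g * γ) a z = F γ a z + c g) {ψ : Cm q → ℝ}
    (hψ : Continuous ψ) (hper : ∀ g t, ψ (t + c g) = ψ t) :
    Tendsto (fun k => Int P K (fun γ a z => ψ (F γ a z) *
      vA K θ 0 (f k) (f k) γ a z) / en P K θ 0 (f k) (f k)) U
      (𝓝 (BInt P K (fun a z => ρ a z * ψ (F 1 a z)))) := by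
  have e1 : ∀ k, Int P K (fun γ a z => ψ (F γ a z) * vA K θ 0 (f k) (f k) γ a z) =
      Int P K (fun γ a z => ψ (F 1 a z) * vA K θ 0 (f k) (f k) γ a z) := by
    intro k
    unfold Vale.Agent.P284.H894.V.Int
    refine tsum_congr fun γ => Finset.sum_congr rfl fun a _ => ?_
    refine setIntegral_congr_fun (isOpen_V C a).measurableSet fun z hz => ?_
    simp only
    have h1 := heq γ 1 a z (V_sub_Ω C a hz)
    rw [mul_one] at h1
    rw [h1, hper]
  have h2 := tendsto_finsetSum (Finset.univ : Finset C.I) fun a _ =>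
    hL.lim a (fun z => P.χ a a z * ψ (F 1 a z) * vol (K.w a) z)
      (((chi_cont P a a).mul (hψ.comp_continuousOn (hF.hol 1 a).continuousOn)).mul (vol_cont K a))
  have e2 : BInt P K (fun a z => ρ a z * ψ (F 1 a z)) =
      ∑ a, ∫ z in C.V a, P.χ a a z * ψ (F 1 a z) * vol (K.w a) z * ρ a z := by
    unfold BInt
    refine Finset.sum_congr rfl fun a _ => ?_
    refine setIntegral_congr_fun (isOpen_V C a).measurableSet fun z _ => ?_
    simp only
    ring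
  rw [e2]
  refine h2.congr fun k => ?_
  rw [e1, Int_swap (h := fun a z => ψ (F 1 a z)) (fam_vA (hS.tst k) (hS.tst k) K θ 0),
    Finset.sum_div]

/-- **FLAT-LIM**: the push-forward of the limit density is dominated by Lebesgue measure. -/
theorem flat_lim' [U.NeBot] (hF : HolF C F) {c : Γ → Cm q}
    (heq : ∀ g γ a, ∀ z ∈ C.Ω a, F (g * γ) a z = F γ a z + c g)
    (hfin : ∀ R : ℝ, {v : Cm q | (∃ g, c g = v) ∧ ‖v‖ ≤ R}.Finite)
    (hco : ∃ R : ℝ, ∀ t : Cm q, ∃ g, ‖t - c g‖ ≤ R)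
    (hS : FlatSeq P K θ F U f) {ρ : C.I → Cm n → ℝ} (hbd : BD C ρ)
    (hnn : ∀ a, ∀ z ∈ C.Ω a, 0 ≤ ρ a z)
    (hlim : ∀ ψ : Cm q → ℝ, Continuous ψ → (∀ g t, ψ (t + c g) = ψ t) →
      Tendsto (fun k => Int P K (fun γ a z => ψ (F γ a z) *
        vA K θ 0 (f k) (f k) γ a z) / en P K θ 0 (f k) (f k)) U
        (𝓝 (BInt P K (fun a z => ρ a z * ψ (F 1 a z))))) :
    ∃ A : ℝ≥0∞, A ≠ ⊤ ∧ ∀ (g : Γ) (a : C.I) (s : Cm q → ℝ≥0∞), Measurable s →
      ∫⁻ z in C.V a, s (F g a z) * ENNReal.ofReal (ρ a z * vol (K.w a) z) ≤ A * ∫⁻ y, s y := by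
  let D : Dat C (0 : Matrix (Fin q) (Fin q) ℂ) (0 : Matrix (Fin q) (Fin q) ℂ) :=
    { F := F, c := c, f := fun _ => 0, hol := hF.hol, compat := hF.compat, equi := heq
      co := fun g' g => by simp [Vale.Agent.P284.H66.S7.BB] }
  obtain ⟨A, hA, h⟩ := haar_gen D P K hfin hbd hnn (fun φ hφ hper v => by
    have hB : ∃ B, ∀ t, |φ t| ≤ B := by
      obtain ⟨R, hR⟩ := hco
      obtain ⟨B, hB⟩ := (isCompact_closedBall (0 : Cm q) R).exists_bound_of_continuousOn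
        hφ.continuous.continuousOn
      refine ⟨B, fun t => ?_⟩
      obtain ⟨g, hg⟩ := hR t
      have h1 := hB (t - c g) (by simpa using hg)
      have h2 : φ (t - c g) = φ t := by
        have := hper g (t - c g)
        rw [← this]
        show φ (t - c g + c g) = φ t
        rw [sub_add_cancel]
      rwa [h2, Real.norm_eq_abs] at h1
    have h1 := hS.fd hF hφ hB v
    have h2 : Continuous fun t => fderiv ℝ φ t v :=
      (hφ.continuous_fderiv (by simp)).clm_apply continuous_const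
    have h3 : ∀ g t, fderiv ℝ φ (t + c g) v = fderiv ℝ φ t v := by
      intro g t
      have h4 : (fun t => φ (t + c g)) = φ := funext fun t => hper g t
      conv_rhs => rw [← h4]
      rw [fderiv_comp_add_right]
    exact tendsto_nhds_unique (hlim _ h2 h3) h1)
  refine ⟨A, hA, fun g a s hs => ?_⟩
  have h1 := h a (fun y => s (y + c g)) (hs.comp (measurable_add_const _))
  rw [lintegral_add_right_eq_self (μ := (volume : Measure (Cm q))) s (c g)] at h1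
  refine le_trans (le_of_eq ?_) h1
  refine setLIntegral_congr_fun measurableSet_ball fun z hz => ?_
  have e1 : F g a z = D.F 1 a z + c g := by
    have := heq g 1 a z (V_sub_Ω C a hz)
    rwa [mul_one] at this
  simp only [e1]

theorem flat_lim [U.NeBot] (hF : HolF C F) {c : Γ → Cm q}
    (heq : ∀ g γ a, ∀ z ∈ C.Ω a, F (g * γ) a z = F γ a z + c g)
    (hfin : ∀ R : ℝ, {v : Cm q | (∃ g, c g = v) ∧ ‖v‖ ≤ R}.Finite)
    (hco : ∃ R : ℝ, ∀ t : Cm q, ∃ g, ‖t - c g‖ ≤ R)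
    (hS : FlatSeq P K θ F U f) {ρ : C.I → Cm n → ℝ} (hL : LimD P K θ U f ρ) :
    ∃ A : ℝ≥0∞, A ≠ ⊤ ∧ ∀ (g : Γ) (a : C.I) (s : Cm q → ℝ≥0∞), Measurable s →
      ∫⁻ z in C.V a, s (F g a z) * ENNReal.ofReal (ρ a z * vol (K.w a) z) ≤ A * ∫⁻ y, s y :=
  flat_lim' hF heq hfin hco hS hL.bd hL.nn fun _ hψ hper => hL.int hS hF heq hψ hper

/-! ### densities given on smaller balls -/

/-- a density given on open sets `Q a ⊇ W a` extends to a density on the base -/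
theorem exists_BD {Q : C.I → Set (Cm n)} (hQo : ∀ a, IsOpen (Q a)) (hWQ : ∀ a, C.W a ⊆ Q a)
    (hQΩ : ∀ a, Q a ⊆ C.Ω a) {ρ : C.I → Cm n → ℝ} (hc : ∀ a, ContinuousOn (ρ a) (Q a))
    (h0 : ∀ a, ∀ z ∈ Q a, 0 ≤ ρ a z)
    (hcomp : ∀ a b, ∀ z ∈ C.O a b, z ∈ Q a → C.T a b z ∈ Q b → ρ a z = ρ b (C.T a b z)) :
    ∃ ρ' : C.I → Cm n → ℝ, BD C ρ' ∧ (∀ a, ∀ z ∈ C.Ω a, 0 ≤ ρ' a z) ∧
      ∀ a, ∀ z ∈ Q a, ρ' a z = ρ a z := by
  classical
  have hcov : ∀ a z, ∃ b, z ∈ C.Ω a → z ∈ C.O a b ∧ C.T a b z ∈ C.W b := by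
    intro a z
    by_cases hz : z ∈ C.Ω a
    · obtain ⟨b, hb⟩ := C.cover a z hz
      exact ⟨b, fun _ => hb⟩
    · exact ⟨a, fun h => absurd h hz⟩
  choose β hβ using hcov
  set ρ' : C.I → Cm n → ℝ := fun a z => ρ (β a z) (C.T a (β a z) z) with hρ'
  have key : ∀ a b z, z ∈ C.O a b → C.T a b z ∈ Q b → ρ' a z = ρ b (C.T a b z) := by
    intro a b z hz hzb
    have hzΩ : z ∈ C.Ω a := C.O_sub a b hz
    obtain ⟨h1, h2⟩ := hβ a z hzΩ
    set d := β a z with hd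
    have h3 : C.T a d z ∈ C.O d a := C.T_mem a d z h1
    have h4 : C.T d a (C.T a d z) = z := by
      have := C.trans_T a d a z h1 h3
      rw [← this]
      exact C.T_self a z (by rw [C.O_self]; exact hzΩ)
    have h5 : C.T a d z ∈ C.O d b := C.trans_mem d a b _ h3 (by rw [h4]; exact hz)
    have h6 : C.T d b (C.T a d z) = C.T a b z := by
      rw [C.trans_T d a b _ h3 (by rw [h4]; exact hz), h4]
    have h7 := hcomp d b _ h5 (hWQ d h2) (by rw [h6]; exact hzb)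
    rw [h6] at h7
    exact h7
  refine ⟨ρ', ⟨fun a => ?_, fun a b z hz _ _ => ?_⟩, fun a z hz => ?_, fun a z hz => ?_⟩
  · intro z hz
    obtain ⟨h1, h2⟩ := hβ a z hz
    set d := β a z with hd
    have hT : ContinuousAt (C.T a d) z :=
      ((C.T_holo a d).differentiableAt ((C.O_open a d).mem_nhds h1)).continuousAt
    have h3 : ContinuousAt (fun y => ρ d (C.T a d y)) z :=
      ((hc d).continuousAt ((hQo d).mem_nhds (hWQ d h2))).comp hT
    refine (h3.congr ?_).continuousWithinAt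
    filter_upwards [(C.O_open a d).mem_nhds h1, hT ((hQo d).mem_nhds (hWQ d h2))] with y hy hy2
    exact (key a d y hy hy2).symm
  · have hzb : C.T a b z ∈ C.Ω b := C.O_sub b a (C.T_mem a b z hz)
    obtain ⟨h1, h2⟩ := hβ b (C.T a b z) hzb
    set d := β b (C.T a b z) with hd
    have h3 := C.trans_mem a b d z hz h1
    have h4 := C.trans_T a b d z hz h1
    rw [key a d z h3 (by rw [h4]; exact hWQ d h2), key b d _ h1 (hWQ d h2), h4]
  · obtain ⟨h1, h2⟩ := hβ a z hz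
    exact h0 _ _ (hWQ _ h2)
  · have hzΩ := hQΩ a hz
    have h1 : z ∈ C.O a a := by rw [C.O_self]; exact hzΩ
    have h2 := C.T_self a z h1
    rw [key a a z h1 (by rw [h2]; exact hz), h2]

/-- **FLAT-LIM**, for a limit density given on the sets `Q a`. -/
theorem flat_limQ [U.NeBot] (hF : HolF C F) {c : Γ → Cm q}
    (heq : ∀ g γ a, ∀ z ∈ C.Ω a, F (g * γ) a z = F γ a z + c g)
    (hfin : ∀ R : ℝ, {v : Cm q | (∃ g, c g = v) ∧ ‖v‖ ≤ R}.Finite)
    (hco : ∃ R : ℝ, ∀ t : Cm q, ∃ g, ‖t - c g‖ ≤ R)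
    (hS : FlatSeq P K θ F U f) {Q : C.I → Set (Cm n)} (hQo : ∀ a, IsOpen (Q a))
    (hWQ : ∀ a, C.W a ⊆ Q a) (hQV : ∀ a, Q a ⊆ C.V a)
    (hχ : ∀ a, ∀ z ∈ C.V a, P.χ a a z ≠ 0 → z ∈ Q a) {ρ : C.I → Cm n → ℝ}
    (hc : ∀ a, ContinuousOn (ρ a) (Q a)) (h0 : ∀ a, ∀ z ∈ Q a, 0 ≤ ρ a z)
    (hcomp : ∀ a b, ∀ z ∈ C.O a b, z ∈ Q a → C.T a b z ∈ Q b → ρ a z = ρ b (C.T a b z))
    (hlim : ∀ ψ : Cm q → ℝ, Continuous ψ → (∀ g t, ψ (t + c g) = ψ t) →
      Tendsto (fun k => Int P K (fun γ a z => ψ (F γ a z) *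
        vA K θ 0 (f k) (f k) γ a z) / en P K θ 0 (f k) (f k)) U
        (𝓝 (∑ a, ∫ z in Q a, P.χ a a z * (ρ a z * ψ (F 1 a z)) * vol (K.w a) z))) :
    ∃ A : ℝ≥0∞, A ≠ ⊤ ∧ ∀ (g : Γ) (a : C.I) (s : Cm q → ℝ≥0∞), Measurable s →
      ∫⁻ z in Q a, s (F g a z) * ENNReal.ofReal (ρ a z * vol (K.w a) z) ≤ A * ∫⁻ y, s y := by
  obtain ⟨ρ', hbd, hnn, he⟩ := exists_BD hQo hWQ (fun a => (hQV a).trans (V_sub_Ω C a)) hc h0 hcomp
  obtain ⟨A, hA, h⟩ := flat_lim' hF heq hfin hco hS hbd hnn fun ψ hψ hper => by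
    have h1 : BInt P K (fun a z => ρ' a z * ψ (F 1 a z)) =
        ∑ a, ∫ z in Q a, P.χ a a z * (ρ a z * ψ (F 1 a z)) * vol (K.w a) z := by
      unfold BInt
      refine Finset.sum_congr rfl fun a _ => ?_
      rw [setIntegral_eq_of_subset_of_forall_sdiff_eq_zero (isOpen_V C a).measurableSet (hQV a)
        fun z hz => ?_]
      · refine setIntegral_congr_fun (hQo a).measurableSet fun z hz => ?_
        simp only [he a z hz]
      · by_cases h2 : P.χ a a z = 0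
        · rw [h2, zero_mul, zero_mul]
        · exact absurd (hχ a z hz.1 h2) hz.2
    rw [h1]
    exact hlim ψ hψ hper
  refine ⟨A, hA, fun g a s hs => ?_⟩
  refine le_trans ?_ (h g a s hs)
  calc ∫⁻ z in Q a, s (F g a z) * ENNReal.ofReal (ρ a z * vol (K.w a) z)
      = ∫⁻ z in Q a, s (F g a z) * ENNReal.ofReal (ρ' a z * vol (K.w a) z) := by
        refine setLIntegral_congr_fun (hQo a).measurableSet fun z hz => ?_
        simp only [he a z hz]
    _ ≤ _ := lintegral_mono_set (hQV a)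

/-- **FLAT-LIM**, conclusion for the norm of a form. -/
theorem flat_push [U.NeBot] (hF : HolF C F) {c : Γ → Cm q}
    (heq : ∀ g γ a, ∀ z ∈ C.Ω a, F (g * γ) a z = F γ a z + c g)
    (hfin : ∀ R : ℝ, {v : Cm q | (∃ g, c g = v) ∧ ‖v‖ ≤ R}.Finite)
    (hco : ∃ R : ℝ, ∀ t : Cm q, ∃ g, ‖t - c g‖ ≤ R)
    (hS : FlatSeq P K θ F U f) {Q : C.I → Set (Cm n)} (hQo : ∀ a, IsOpen (Q a))
    (hWQ : ∀ a, C.W a ⊆ Q a) (hQV : ∀ a, Q a ⊆ C.V a)
    (hχ : ∀ a, ∀ z ∈ C.V a, P.χ a a z ≠ 0 → z ∈ Q a) {ρ : C.I → Cm n → ℝ}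
    (hc : ∀ a, ContinuousOn (ρ a) (Q a)) (h0 : ∀ a, ∀ z ∈ Q a, 0 ≤ ρ a z)
    (hcomp : ∀ a b, ∀ z ∈ C.O a b, z ∈ Q a → C.T a b z ∈ Q b → ρ a z = ρ b (C.T a b z))
    (hlim : ∀ ψ : Cm q → ℝ, Continuous ψ → (∀ g t, ψ (t + c g) = ψ t) →
      Tendsto (fun k => Int P K (fun γ a z => ψ (F γ a z) *
        vA K θ 0 (f k) (f k) γ a z) / en P K θ 0 (f k) (f k)) U
        (𝓝 (∑ a, ∫ z in Q a, P.χ a a z * (ρ a z * ψ (F 1 a z)) * vol (K.w a) z)))
    {W : Type} [NormedAddCommGroup W] {S : Γ → C.I → Cm n → W} {B : ℝ}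
    (hSρ : ∀ γ a, ∀ z ∈ Q a, ‖S γ a z‖ ^ 2 ≤ B * ρ a z) :
    ∃ A : ℝ≥0∞, A ≠ ⊤ ∧ ∀ (g : Γ) (a : C.I) (s : Cm q → ℝ≥0∞), Measurable s →
      ∫⁻ z in Q a, s (F g a z) * ‖S g a z‖ₑ ^ 2 ≤ A * ∫⁻ y, s y := by
  obtain ⟨A, hA, h⟩ := flat_limQ hF heq hfin hco hS hQo hWQ hQV hχ hc h0 hcomp hlim
  refine ⟨ENNReal.ofReal (|B| / K.lam) * A, ENNReal.mul_ne_top ENNReal.ofReal_ne_top hA,
    fun g a s hs => ?_⟩
  have h1 := mul_le_mul' (le_refl (ENNReal.ofReal (|B| / K.lam))) (h g a s hs)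
  rw [← mul_assoc] at h1
  refine le_trans ?_ h1
  rw [← lintegral_const_mul' _ _ ENNReal.ofReal_ne_top]
  refine setLIntegral_mono' (hQo a).measurableSet fun z hz => ?_
  rw [mul_left_comm]
  refine mul_le_mul' le_rfl ?_
  rw [← ENNReal.ofReal_mul (by have := K.lam_pos; positivity)]
  have e1 : ‖S g a z‖ₑ ^ 2 = ENNReal.ofReal (‖S g a z‖ ^ 2) := by
    rw [← ofReal_norm, ENNReal.ofReal_pow (norm_nonneg _)]
  rw [e1]
  refine ENNReal.ofReal_le_ofReal ?_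
  have h2 := hSρ g a z hz
  have h3 := K.vol_low a z (V_sub_Ω C a (hQV a hz))
  have h4 := h0 a z hz
  have hl := K.lam_pos
  have h5 : B * ρ a z ≤ |B| * ρ a z := mul_le_mul_of_nonneg_right (le_abs_self B) h4
  have h6 : |B| * ρ a z ≤ |B| / K.lam * (ρ a z * vol (K.w a) z) := by
    have h7 : |B| / K.lam * (ρ a z * vol (K.w a) z) = |B| * ρ a z * (vol (K.w a) z / K.lam) := by
      field_simp
    rw [h7]
    have h8 : 1 ≤ vol (K.w a) z / K.lam := by rw [le_div_iff₀ hl]; linarith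
    exact le_mul_of_one_le_right (by positivity) h8
  linarith

end

end Vale.Agent.P284.H15.FL
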