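import Vale.Agent.P284.H366.WD
import Mathlib.Analysis.InnerProductSpace.Basic
import Mathlib.Analysis.Matrix.Order

/-!
# P284 (helper15): the norm of a Hilbert valued form of type `(p,0)` with respect to a metric
-/

open scoped ContDiff Topology ComplexConjugate ComplexOrder Matrix
open Set Filter

noncomputable section

namespace Vale.Agent.P284.H15.FL

open Vale.Agent.P272.K Vale.Agent.P284.H366

variable {n p : ℕ} {W : Type*} [NormedAddCommGroup W] [InnerProductSpace ℂ W]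

/-- the pairing of the coefficients with the `p`-th tensor power of `G` -/
def pr (G : Matrix (Fin n) (Fin n) ℂ) (B : (Fin p → Fin n) → (Fin p → Fin n) → ℂ) : ℂ :=
  ((p.factorial : ℂ))⁻¹ * ∑ J, ∑ J', (∏ i, G (J i) (J' i)) * B J J'

/-- the square of the norm of the form `S` (`G` the inverse of the metric) -/
def nS (G : Matrix (Fin n) (Fin n) ℂ) (S : Cm n [⋀^Fin p]→L[ℂ] W) : ℝ :=
  (pr G fun J J' => inner ℂ (S (eJ J)) (S (eJ J'))).re

theorem expandS (S : Cm n [⋀^Fin p]→L[ℂ] W) (ξ : Fin p → Cm n) :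
    S ξ = ∑ J : Fin p → Fin n, (∏ i, ξ i (J i)) • S (eJ J) :=
  expand S.toAlternatingMap.toMultilinearMap ξ

/-- the Gram determinant -/
theorem det_gram (G : Matrix (Fin n) (Fin n) ℂ) (A : Matrix (Fin n) (Fin p) ℂ) :
    (Aᴴ * G * A).det = pr G fun J J' => conj (wd A (eJ J)) * wd A (eJ J') := by
  have hp : ((p.factorial : ℂ)) ≠ 0 := by exact_mod_cast p.factorial_ne_zero
  have h1 := antisymm (wd (G * A)).toAlternatingMap (fun i k => conj (A k i))
  have h2 : wd (G * A) (fun i k => conj (A k i)) = (Aᴴ * G * A).det := by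
    rw [wd_apply]
    congr 1
    ext i j
    rw [Matrix.mul_assoc, Matrix.mul_apply]
    rfl
  have h3 : ∀ J : Fin p → Fin n, Matrix.det (Matrix.of fun i j => conj (A (J j) i)) =
      conj (wd A (eJ J)) := by
    intro J
    rw [wd_eJ, ← Matrix.det_transpose, RingHom.map_det]
    congr 1
  have h4 : ∀ J : Fin p → Fin n, wd (G * A) (eJ J) =
      ∑ J', (∏ i, G (J i) (J' i)) * wd A (eJ J') := by
    intro J
    have h5 := expandS (wd A) (fun i => G (J i))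
    have h6 : wd (G * A) (eJ J) = wd A (fun i => G (J i)) := by
      rw [wd_apply, wd_apply, vm_eJ]
      congr 1
    rw [h6, h5]
    rfl
  have h7 : ∑ J : Fin p → Fin n, conj (wd A (eJ J)) * wd (G * A) (eJ J) =
      (p.factorial : ℂ) * (Aᴴ * G * A).det := by
    rw [← h2]
    refine Eq.trans ?_ h1
    refine Finset.sum_congr rfl fun J _ => ?_
    rw [← h3]
    rfl
  rw [pr, eq_inv_mul_iff_mul_eq₀ hp, ← h7]
  refine Finset.sum_congr rfl fun J _ => ?_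
  rw [h4, Finset.mul_sum]
  refine Finset.sum_congr rfl fun J' _ => ?_
  ring

/-- sum of squares -/
theorem nS_eq (R : Matrix (Fin n) (Fin n) ℂ) (S : Cm n [⋀^Fin p]→L[ℂ] W) :
    nS (Rᴴ * R) S = ((p.factorial : ℝ))⁻¹ * ∑ M : Fin p → Fin n, ‖S fun i => R (M i)‖ ^ 2 := by
  have h1 : ∀ M : Fin p → Fin n, ((‖S fun i => R (M i)‖ ^ 2 : ℝ) : ℂ) =
      ∑ J : Fin p → Fin n, ∑ J' : Fin p → Fin n,
        (∏ i, conj (R (M i) (J i)) * R (M i) (J' i)) * inner ℂ (S (eJ J)) (S (eJ J')) := by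
    intro M
    have h2 : ((‖S fun i => R (M i)‖ ^ 2 : ℝ) : ℂ) =
        inner ℂ (S fun i => R (M i)) (S fun i => R (M i)) := by
      rw [inner_self_eq_norm_sq_to_K]
      push_cast
      rfl
    rw [h2, expandS S (fun i => R (M i)), sum_inner]
    refine Finset.sum_congr rfl fun J _ => ?_
    rw [inner_sum]
    refine Finset.sum_congr rfl fun J' _ => ?_
    rw [inner_smul_left, inner_smul_right, map_prod, Finset.prod_mul_distrib]
    ring
  have h3 : ∀ J J' : Fin p → Fin n, (∏ i, (Rᴴ * R) (J i) (J' i)) =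
      ∑ M : Fin p → Fin n, ∏ i, conj (R (M i) (J i)) * R (M i) (J' i) := by
    intro J J'
    have h4 : ∀ i, (Rᴴ * R) (J i) (J' i) = ∑ m, conj (R m (J i)) * R m (J' i) := by
      intro i
      rw [Matrix.mul_apply]
      rfl
    simp only [h4]
    rw [Finset.prod_univ_sum, Fintype.piFinset_univ]
  have h5 : pr (Rᴴ * R) (fun J J' => inner ℂ (S (eJ J)) (S (eJ J'))) =
      ((((p.factorial : ℝ))⁻¹ * ∑ M : Fin p → Fin n, ‖S fun i => R (M i)‖ ^ 2 : ℝ) : ℂ) := by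
    rw [pr]
    push_cast
    congr 1
    have h6 : ∀ M : Fin p → Fin n, ((‖S fun i => R (M i)‖ : ℂ)) ^ 2 =
        ∑ J : Fin p → Fin n, ∑ J' : Fin p → Fin n,
        (∏ i, conj (R (M i) (J i)) * R (M i) (J' i)) * inner ℂ (S (eJ J)) (S (eJ J')) := by
      intro M
      rw [← h1 M]
      push_cast
      rfl
    simp only [h6, h3, Finset.sum_mul]
    refine (Finset.sum_congr rfl fun J _ => Finset.sum_comm).trans ?_
    exact Finset.sum_comm
  rw [nS, h5, Complex.ofReal_re]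

theorem nS_nonneg (R : Matrix (Fin n) (Fin n) ℂ) (S : Cm n [⋀^Fin p]→L[ℂ] W) :
    0 ≤ nS (Rᴴ * R) S := by
  rw [nS_eq]
  exact mul_nonneg (by positivity) (Finset.sum_nonneg fun _ _ => sq_nonneg _)

/-- change of coordinates -/
theorem nS_comp (R J : Matrix (Fin n) (Fin n) ℂ) (L : Cm n →L[ℂ] Cm n)
    (hL : ∀ v, L v = J *ᵥ v) (S : Cm n [⋀^Fin p]→L[ℂ] W) :
    nS (Rᴴ * R) (S.compContinuousLinearMap L) =
      nS ((J.map (starRingEnd ℂ)) * (Rᴴ * R) * Jᵀ) S := by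
  have h1 : (J.map (starRingEnd ℂ)) * (Rᴴ * R) * Jᵀ = (R * Jᵀ)ᴴ * (R * Jᵀ) := by
    have h2 : (Jᵀ)ᴴ = J.map (starRingEnd ℂ) := by
      ext i j; rfl
    rw [Matrix.conjTranspose_mul, h2]
    simp only [Matrix.mul_assoc]
  rw [h1, nS_eq, nS_eq]
  congr 1
  refine Finset.sum_congr rfl fun M _ => ?_
  have h3 : (fun i => (R * Jᵀ) (M i)) = fun i => L (R (M i)) := by
    funext i
    rw [hL]
    ext k
    rw [Matrix.mul_apply]
    simp only [Matrix.mulVec, dotProduct, Matrix.transpose_apply]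
    exact Finset.sum_congr rfl fun l _ => mul_comm _ _
  rw [h3]
  rfl

/-- the coefficients are bounded by the norm -/
theorem coeff_le {R : Matrix (Fin n) (Fin n) ℂ} {B : ℝ} {T : Matrix (Fin n) (Fin n) ℂ}
    (hT : T * R = 1) (hB : ∀ j, ∑ m, ‖T j m‖ ^ 2 ≤ B) (S : Cm n [⋀^Fin p]→L[ℂ] W)
    (J : Fin p → Fin n) : ‖S (eJ J)‖ ^ 2 ≤ B ^ p * (p.factorial : ℝ) * nS (Rᴴ * R) S := by
  have h1 : ∀ j, (Pi.single j (1 : ℂ) : Cm n) = ∑ m, T j m • R m := by
    intro j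
    ext k
    have h2 : (T * R) j k = (1 : Matrix (Fin n) (Fin n) ℂ) j k := by rw [hT]
    rw [Matrix.mul_apply] at h2
    rw [Finset.sum_apply]
    simp only [Pi.smul_apply, smul_eq_mul]
    rw [h2, Matrix.one_apply, Pi.single_apply]
    simp [eq_comm]
  have h2 : S (eJ J) = ∑ M : Fin p → Fin n, (∏ i, T (J i) (M i)) • S fun i => R (M i) := by
    have h3 : eJ J = fun i => ∑ m, T (J i) m • R m := by
      funext i
      exact h1 (J i)
    rw [h3]
    have h4 := S.toAlternatingMap.toMultilinearMap.map_sum (fun i m => T (J i) m • R m)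
    refine h4.trans (Finset.sum_congr rfl fun M _ => ?_)
    exact S.toAlternatingMap.toMultilinearMap.map_smul_univ (fun i => T (J i) (M i)) fun i => R (M i)
  have h3 : ‖S (eJ J)‖ ≤ ∑ M : Fin p → Fin n, ‖∏ i, T (J i) (M i)‖ * ‖S fun i => R (M i)‖ := by
    rw [h2]
    refine (norm_sum_le _ _).trans (le_of_eq ?_)
    exact Finset.sum_congr rfl fun M _ => norm_smul _ _
  have h4 : ‖S (eJ J)‖ ^ 2 ≤ (∑ M : Fin p → Fin n, ‖∏ i, T (J i) (M i)‖ ^ 2) *
      ∑ M : Fin p → Fin n, ‖S fun i => R (M i)‖ ^ 2 :=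
    (pow_le_pow_left₀ (norm_nonneg _) h3 2).trans (Finset.sum_mul_sq_le_sq_mul_sq _ _ _)
  have h5 : (∑ M : Fin p → Fin n, ‖∏ i, T (J i) (M i)‖ ^ 2) ≤ B ^ p := by
    have h6 : ∀ M : Fin p → Fin n, ‖∏ i, T (J i) (M i)‖ ^ 2 = ∏ i, ‖T (J i) (M i)‖ ^ 2 := by
      intro M
      rw [norm_prod, Finset.prod_pow]
    simp only [h6]
    have h7 := Finset.prod_univ_sum (fun _ : Fin p => (Finset.univ : Finset (Fin n)))
      (fun i m => ‖T (J i) m‖ ^ 2)
    rw [Fintype.piFinset_univ] at h7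
    rw [← h7]
    calc ∏ i, ∑ m, ‖T (J i) m‖ ^ 2 ≤ ∏ _i : Fin p, B :=
          Finset.prod_le_prod (fun i _ => Finset.sum_nonneg fun _ _ => sq_nonneg _)
            fun i _ => hB (J i)
      _ = B ^ p := by simp
  have h8 : (p.factorial : ℝ) * nS (Rᴴ * R) S = ∑ M : Fin p → Fin n, ‖S fun i => R (M i)‖ ^ 2 := by
    rw [nS_eq, ← mul_assoc, mul_inv_cancel₀ (by exact_mod_cast p.factorial_ne_zero), one_mul]
  rw [mul_assoc, h8]
  exact h4.trans (mul_le_mul_of_nonneg_right h5 (Finset.sum_nonneg fun _ _ => sq_nonneg _))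

/-- the operator norm is bounded by the coefficients -/
theorem norm_le_coeff (S : Cm n [⋀^Fin p]→L[ℂ] W) :
    ‖S‖ ≤ ∑ J : Fin p → Fin n, ‖S (eJ J)‖ := by
  refine S.opNorm_le_bound (Finset.sum_nonneg fun _ _ => norm_nonneg _) fun ξ => ?_
  rw [expandS S ξ, Finset.sum_mul]
  refine (norm_sum_le _ _).trans (Finset.sum_le_sum fun J _ => ?_)
  rw [norm_smul, mul_comm]
  refine mul_le_mul_of_nonneg_left ?_ (norm_nonneg _)
  rw [norm_prod]
  exact Finset.prod_le_prod (fun i _ => norm_nonneg _) fun i _ => norm_le_pi_norm (ξ i) (J i)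

/-- the operator norm is bounded by the norm -/
theorem norm_sq_le {R : Matrix (Fin n) (Fin n) ℂ} {B : ℝ} {T : Matrix (Fin n) (Fin n) ℂ}
    (hT : T * R = 1) (hB : ∀ j, ∑ m, ‖T j m‖ ^ 2 ≤ B) (S : Cm n [⋀^Fin p]→L[ℂ] W) :
    ‖S‖ ^ 2 ≤ ((n : ℝ) ^ p * (n : ℝ) ^ p * (B ^ p * (p.factorial : ℝ))) * nS (Rᴴ * R) S := by
  have h1 : ‖S‖ ^ 2 ≤ (∑ J : Fin p → Fin n, ‖S (eJ J)‖) ^ 2 :=
    pow_le_pow_left₀ (norm_nonneg _) (norm_le_coeff S) 2
  have hc : ((Finset.univ : Finset (Fin p → Fin n)).card : ℝ) = (n : ℝ) ^ p := by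
    rw [Finset.card_univ]
    simp
  have h2 := sq_sum_le_card_mul_sum_sq (s := (Finset.univ : Finset (Fin p → Fin n)))
    (f := fun J => ‖S (eJ J)‖)
  rw [hc] at h2
  have h3 : ∑ J : Fin p → Fin n, ‖S (eJ J)‖ ^ 2 ≤
      (n : ℝ) ^ p * (B ^ p * (p.factorial : ℝ) * nS (Rᴴ * R) S) := by
    calc ∑ J : Fin p → Fin n, ‖S (eJ J)‖ ^ 2
        ≤ ∑ _J : Fin p → Fin n, B ^ p * (p.factorial : ℝ) * nS (Rᴴ * R) S :=
          Finset.sum_le_sum fun J _ => coeff_le hT hB S J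
      _ = _ := by rw [Finset.sum_const, nsmul_eq_mul, hc]
  calc ‖S‖ ^ 2 ≤ (n : ℝ) ^ p * ∑ J : Fin p → Fin n, ‖S (eJ J)‖ ^ 2 := h1.trans h2
    _ ≤ (n : ℝ) ^ p * ((n : ℝ) ^ p * (B ^ p * (p.factorial : ℝ) * nS (Rᴴ * R) S)) :=
        mul_le_mul_of_nonneg_left h3 (by positivity)
    _ = _ := by ring

/-- square root of the inverse of a metric -/
theorem exists_R {w : Matrix (Fin n) (Fin n) ℂ} (hw : w.PosDef) :
    ∃ R T : Matrix (Fin n) (Fin n) ℂ, w⁻¹ = Rᴴ * R ∧ T * R = 1 ∧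
      ∀ j, ∑ m, ‖T j m‖ ^ 2 = (w j j).re := by
  have hG : (w⁻¹).PosDef := hw.inv
  obtain ⟨R, hR, hRR⟩ : ∃ R : Matrix (Fin n) (Fin n) ℂ, R.IsHermitian ∧ R * R = w⁻¹ := by
    open scoped MatrixOrder in
    exact ⟨CFC.sqrt (w⁻¹), (Matrix.nonneg_iff_posSemidef.1 (CFC.sqrt_nonneg (w⁻¹))).isHermitian,
      CFC.sqrt_mul_sqrt_self (w⁻¹) hG.posSemidef.nonneg⟩
  have hu : IsUnit w.det := isUnit_iff_ne_zero.2 hw.det_pos.ne'
  have hd : R.det ≠ 0 := by
    intro h0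
    have h1 : (w⁻¹).det = 0 := by rw [← hRR, Matrix.det_mul, h0, zero_mul]
    exact hG.det_pos.ne' h1
  have huR : IsUnit R.det := isUnit_iff_ne_zero.2 hd
  refine ⟨R, R⁻¹, by rw [hR.eq, hRR], Matrix.nonsing_inv_mul _ huR, fun j => ?_⟩
  have h1 : R⁻¹ * (R⁻¹)ᴴ = w := by
    rw [Matrix.conjTranspose_nonsing_inv, hR.eq, ← Matrix.mul_inv_rev, hRR,
      Matrix.nonsing_inv_nonsing_inv _ hu]
  have h2 : (R⁻¹ * (R⁻¹)ᴴ) j j = ((∑ m, ‖R⁻¹ j m‖ ^ 2 : ℝ) : ℂ) := by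
    rw [Matrix.mul_apply]
    push_cast
    refine Finset.sum_congr rfl fun m _ => ?_
    rw [Matrix.conjTranspose_apply, RCLike.star_def, Complex.mul_conj, Complex.normSq_eq_norm_sq]
    push_cast
    rfl
  rw [← h1, h2, Complex.ofReal_re]

end Vale.Agent.P284.H15.FL
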