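import Vale.Agent.P284.H15.FL.NSa
import Vale.Agent.P284.H15.FL.Lim
import Vale.Agent.P284.H402.B.TF2

/-!
# P284 (helper15), FLAT-LIM: the limit form of the test forms `θ_1 ∧ … ∧ θ_q ∧ ∂f_k`
-/

open scoped Manifold ContDiff Topology Pointwise ComplexConjugate ComplexOrder Matrix ENNReal
open Filter Set Metric MeasureTheory

noncomputable section

set_option linter.unusedSectionVars false

namespace Vale.Agent.P284.H15.FL

open Vale.Agent.P272.K Vale.Agent.P284.H248 Vale.Agent.P284.H894 Vale.Agent.P284.H894.G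
  Vale.Agent.P284.H894.V Vale.Agent.P284.H402.A Vale.Agent.P284.H402.B Vale.Agent.P284.H366
  Vale.Agent.P284.H639.V Vale.Agent.P284.H913.V Vale.Agent.P284.H650

section
variable {n q : ℕ} {Γ : Type} [Group Γ] {C : Coc n Γ} {P : PU C} {K : KM C} {θ : HF C q}

/-- density of the energy in terms of the test form -/
theorem vA_eq_pr (K : KM C) (θ : HF C q) {f : Γ → C.I → Cm n → ℝ} (hf : IsTst C f) (γ : Γ)
    {a : C.I} {z : Cm n} (hz : z ∈ C.Ω a) :
    vA K θ 0 f f γ a z = (pr ((K.w a z)⁻¹) fun J J' =>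
      conj ((tf θ hf).s γ a z (eJ J)) * (tf θ hf).s γ a z (eJ J')).re := by
  rw [vA, qf_bord (w_pos K hz), det_gram]
  rfl

theorem inv_entry_cont (K : KM C) (a : C.I) (i j : Fin n) :
    ContinuousOn (fun z => (K.w a z)⁻¹ i j) (C.Ω a) := fun _ hz =>
  ((w_mc K hz).inv (w_det K hz) i j).continuousAt.continuousWithinAt

theorem prod_cont (K : KM C) (a : C.I) {p : ℕ} (J J' : Fin p → Fin n) :
    ContinuousOn (fun z => ∏ i, (K.w a z)⁻¹ (J i) (J' i)) (C.Ω a) :=
  continuousOn_finsetProd _ fun i _ => inv_entry_cont K a (J i) (J' i)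

variable (D : MD C) {U : Ultrafilter ℕ} {f : ℕ → Γ → C.I → Cm n → ℝ} (hf : ∀ k, IsTst C (f k))

/-- the density of the limit -/
def rhoL (K : KM C) (θ : HF C q) (D : MD C) (U : Ultrafilter ℕ) (hf : ∀ k, IsTst C (f k))
    (a : C.I) (z : Cm n) : ℝ :=
  nS ((K.w a z)⁻¹) (LimS D U (fun k => tf θ (hf k)) 1 a z)

theorem Q_closed_sub (a : C.I) : closedBall (C.c a) (D.ρ a) ⊆ C.Ω a :=
  closedBall_subset_ball (by linarith [D.up a, D.pos, C.r_pos a])

theorem s_cont {f : Γ → C.I → Cm n → ℝ} (hf : IsTst C f) (γ : Γ) (a : C.I)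
    (ξ : Fin (q + 1) → Cm n) : ContinuousOn (fun z => (tf θ hf).s γ a z ξ) (C.Ω a) :=
  fun z hz => ((tf θ hf).smooth γ a ξ z hz).continuousAt.continuousWithinAt

theorem Q_sub_Ω (a : C.I) : D.Q a ⊆ C.Ω a := (D.Q_sub a).trans (H366.V_sub_Ω C a)

theorem LimS_bdd {p : ℕ} {F : ℕ → TForm C p} (h : TSeq U F) (γ : Γ) (a : C.I) :
    ∃ B : ℝ, 0 ≤ B ∧ ∀ z ∈ D.Q a, ∀ J, ‖LimS D U F γ a z (eJ J)‖ ≤ B := by
  have h1 : ∀ J : Fin p → Fin n, ∃ B, ∀ z ∈ D.Q a, ‖LimS D U F γ a z (eJ J)‖ ≤ B := by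
    intro J
    obtain ⟨B, hB⟩ := (h.fseq D γ a (eJ J)).vb D.mol le_rfl
    refine ⟨B, fun z hz => ?_⟩
    rw [LimS_apply D h γ a hz]
    exact norm_mk_le fun k => hB.bd k z (ball_subset_closedBall hz)
  choose B hB using h1
  refine ⟨∑ J, |B J|, Finset.sum_nonneg fun _ _ => abs_nonneg _, fun z hz J => ?_⟩
  exact ((hB J z hz).trans (le_abs_self _)).trans
    (Finset.single_le_sum (f := fun J => |B J|) (fun _ _ => abs_nonneg _) (Finset.mem_univ J))

theorem LimS_int {p : ℕ} {F : ℕ → TForm C p} (h : TSeq U F) (γ : Γ) (a : C.I) {Ψ : Cm n → ℂ}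
    (hΨ : ContinuousOn Ψ (C.Ω a)) (J J' : Fin p → Fin n) :
    IntegrableOn (fun z => Ψ z * inner ℂ (LimS D U F γ a z (eJ J)) (LimS D U F γ a z (eJ J')))
      (D.Q a) := by
  obtain ⟨B, hB0, hB⟩ := LimS_bdd D h γ a
  obtain ⟨M, hM⟩ := (isCompact_closedBall (C.c a) (D.ρ a)).exists_bound_of_continuousOn
    (hΨ.mono (Q_closed_sub D a))
  have hc : ∀ J, ContinuousOn (fun z => LimS D U F γ a z (eJ J)) (D.Q a) := fun J z hz => by
    have h1 := (LimS_analyticAt D h γ a hz).continuousAt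
    have h2 : ContinuousAt (fun z => LimS D U F γ a z (eJ J)) z :=
      ((ContinuousAlternatingMap.apply ℂ (Cm n) (WU Γ U) (eJ J)).continuous.continuousAt).comp h1
    exact h2.continuousWithinAt
  have hcont : ContinuousOn (fun z => Ψ z *
      inner ℂ (LimS D U F γ a z (eJ J)) (LimS D U F γ a z (eJ J'))) (D.Q a) :=
    (hΨ.mono (Q_sub_Ω D a)).mul ((hc J).inner (hc J'))
  have hfin : IsFiniteMeasure (volume.restrict (D.Q a)) :=
    ⟨by rw [Measure.restrict_apply_univ]; exact measure_ball_lt_top⟩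
  refine Integrable.of_bound (C := M * (B * B))
    (hcont.aestronglyMeasurable (D.Q_open a).measurableSet) ?_
  filter_upwards [ae_restrict_mem (D.Q_open a).measurableSet] with z hz
  rw [norm_mul]
  have h1 := hM z (ball_subset_closedBall hz)
  refine mul_le_mul h1 ?_ (norm_nonneg _) ((norm_nonneg _).trans h1)
  refine (norm_inner_le_norm _ _).trans ?_
  exact mul_le_mul (hB z hz J) (hB z hz J') (norm_nonneg _) hB0

theorem lim_piece (hT : TSeq U fun k => tf θ (hf k)) (a : C.I) {φ : Cm n → ℝ}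
    (hφ : ContinuousOn φ (C.Ω a)) :
    Tendsto (fun k => ∑' γ, ∫ z in D.Q a, φ z * vA K θ 0 (f k) (f k) γ a z) U
      (𝓝 (∫ z in D.Q a, φ z * rhoL K θ D U hf a z)) := by
  have hsub := Q_closed_sub D a
  have hφ' : ContinuousOn (fun z => (φ z : ℂ)) (C.Ω a) :=
    Complex.continuous_ofReal.comp_continuousOn hφ
  set m : ℂ := (((q + 1).factorial : ℂ))⁻¹ with hm
  set Ψ : (Fin (q + 1) → Fin n) → (Fin (q + 1) → Fin n) → Cm n → ℂ := fun J J' z =>
    m * ((φ z : ℂ) * ∏ i, (K.w a z)⁻¹ (J i) (J' i)) with hΨ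
  have hΨc : ∀ J J', ContinuousOn (Ψ J J') (C.Ω a) := fun J J' =>
    continuousOn_const.mul (hφ'.mul (prod_cont K a J J'))
  have h1 := tendsto_finsetSum (Finset.univ : Finset (Fin (q + 1) → Fin n)) fun J _ =>
    tendsto_finsetSum (Finset.univ : Finset (Fin (q + 1) → Fin n)) fun J' _ =>
      LimS_quad D hT 1 a ((hΨc J J').mono hsub) (eJ J) (eJ J')
  have h2 := (Complex.continuous_re.tendsto _).comp h1
  have hQm : MeasurableSet (D.Q a) := (D.Q_open a).measurableSet
  -- algebra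
  have halg : ∀ (z : Cm n) (B : (Fin (q + 1) → Fin n) → (Fin (q + 1) → Fin n) → ℂ),
      ∑ J, ∑ J', Ψ J J' z * B J J' = (φ z : ℂ) * pr ((K.w a z)⁻¹) B := by
    intro z B
    rw [pr, ← hm, Finset.mul_sum, Finset.mul_sum]
    refine Finset.sum_congr rfl fun J _ => ?_
    rw [Finset.mul_sum, Finset.mul_sum]
    refine Finset.sum_congr rfl fun J' _ => ?_
    simp only [hΨ]
    ring
  -- the limit
  have e1 : (∑ J, ∑ J', ∫ z in D.Q a, Ψ J J' z *
      inner ℂ (LimS D U (fun k => tf θ (hf k)) 1 a z (eJ J))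
        (LimS D U (fun k => tf θ (hf k)) 1 a z (eJ J'))).re =
      ∫ z in D.Q a, φ z * rhoL K θ D U hf a z := by
    have hi := fun J J' => LimS_int D hT 1 a (hΨc J J') J J'
    have e2 : (∑ J, ∑ J', ∫ z in D.Q a, Ψ J J' z *
        inner ℂ (LimS D U (fun k => tf θ (hf k)) 1 a z (eJ J))
          (LimS D U (fun k => tf θ (hf k)) 1 a z (eJ J'))) =
        ∫ z in D.Q a, ∑ J, ∑ J', Ψ J J' z *
          inner ℂ (LimS D U (fun k => tf θ (hf k)) 1 a z (eJ J))
            (LimS D U (fun k => tf θ (hf k)) 1 a z (eJ J')) := by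
      rw [integral_finsetSum _ fun J _ => integrable_finsetSum _ fun J' _ => hi J J']
      refine Finset.sum_congr rfl fun J _ => ?_
      rw [integral_finsetSum _ fun J' _ => hi J J']
    have hi2 : IntegrableOn (fun z => ∑ J, ∑ J', Ψ J J' z *
        inner ℂ (LimS D U (fun k => tf θ (hf k)) 1 a z (eJ J))
          (LimS D U (fun k => tf θ (hf k)) 1 a z (eJ J'))) (D.Q a) :=
      integrable_finsetSum _ fun J _ => integrable_finsetSum _ fun J' _ => hi J J'
    rw [e2, ← RCLike.re_eq_complex_re, ← integral_re hi2]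
    refine setIntegral_congr_fun hQm fun z _ => ?_
    simp only [halg]
    rw [RCLike.re_eq_complex_re, Complex.re_ofReal_mul]
    rfl
  rw [e1] at h2
  refine h2.congr fun k => ?_
  simp only [Function.comp_apply]
  have hout : ∀ γ ∉ (tf θ (hf k)).S, ∫ z in D.Q a, φ z * vA K θ 0 (f k) (f k) γ a z = 0 := by
    intro γ hγ
    rw [setIntegral_congr_fun (g := fun _ => (0 : ℝ)) hQm fun z hz => by
      simp only
      rw [vA_eq_pr K θ (hf k) γ (Q_sub_Ω D a hz)]
      have h3 := (tf θ (hf k)).out γ hγ a z (D.Q_sub a hz)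
      simp only [h3, AlternatingMap.zero_apply, map_zero, mul_zero, pr, Finset.sum_const_zero,
        Complex.zero_re]]
    simp
  rw [tsum_eq_sum hout]
  have hi : ∀ γ (J J' : Fin (q + 1) → Fin n), IntegrableOn (fun z => Ψ J J' z *
      (conj ((tf θ (hf k)).s γ a z (eJ J)) * (tf θ (hf k)).s γ a z (eJ J'))) (D.Q a) := by
    intro γ J J'
    have h3 : ContinuousOn (fun z => Ψ J J' z *
        (conj ((tf θ (hf k)).s γ a z (eJ J)) * (tf θ (hf k)).s γ a z (eJ J'))) (C.Ω a) :=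
      (hΨc J J').mul ((Complex.continuous_conj.comp_continuousOn (s_cont (hf k) γ a _)).mul
        (s_cont (hf k) γ a _))
    exact ((h3.mono hsub).integrableOn_compact (isCompact_closedBall _ _)).mono_set
      ball_subset_closedBall
  have e3 : ∀ γ, ∫ z in D.Q a, φ z * vA K θ 0 (f k) (f k) γ a z =
      (∑ J, ∑ J', ∫ z in D.Q a, Ψ J J' z *
        (conj ((tf θ (hf k)).s γ a z (eJ J)) * (tf θ (hf k)).s γ a z (eJ J'))).re := by
    intro γ
    have e4 : (∑ J, ∑ J', ∫ z in D.Q a, Ψ J J' z *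
        (conj ((tf θ (hf k)).s γ a z (eJ J)) * (tf θ (hf k)).s γ a z (eJ J'))) =
        ∫ z in D.Q a, ∑ J, ∑ J', Ψ J J' z *
          (conj ((tf θ (hf k)).s γ a z (eJ J)) * (tf θ (hf k)).s γ a z (eJ J')) := by
      rw [integral_finsetSum _ fun J _ => integrable_finsetSum _ fun J' _ => hi γ J J']
      refine Finset.sum_congr rfl fun J _ => ?_
      rw [integral_finsetSum _ fun J' _ => hi γ J J']
    have hi2 : IntegrableOn (fun z => ∑ J, ∑ J', Ψ J J' z *
        (conj ((tf θ (hf k)).s γ a z (eJ J)) * (tf θ (hf k)).s γ a z (eJ J'))) (D.Q a) :=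
      integrable_finsetSum _ fun J _ => integrable_finsetSum _ fun J' _ => hi γ J J'
    rw [e4, ← RCLike.re_eq_complex_re, ← integral_re hi2]
    refine setIntegral_congr_fun hQm fun z hz => ?_
    simp only [halg]
    rw [RCLike.re_eq_complex_re, Complex.re_ofReal_mul, ← vA_eq_pr K θ (hf k) γ (Q_sub_Ω D a hz)]
  rw [Finset.sum_congr rfl fun γ _ => e3 γ, ← Complex.re_sum]
  congr 1
  symm
  refine Finset.sum_comm.trans (Finset.sum_congr rfl fun J _ => ?_)
  exact Finset.sum_comm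

end

end Vale.Agent.P284.H15.FL
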