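import Vale.Agent.P284.H15.FL.NSb

/-!
# P284 (helper15), FLAT-LIM: the push-forward bound for the limit of the test forms
-/

open scoped Manifold ContDiff Topology Pointwise ComplexConjugate ComplexOrder Matrix ENNReal
open Filter Set Metric MeasureTheory

noncomputable section

set_option linter.unusedSectionVars false

namespace Vale.Agent.P284.H15.FL

open Vale.Agent.P272.K Vale.Agent.P284.H248 Vale.Agent.P284.H894 Vale.Agent.P284.H894.G
  Vale.Agent.P284.H894.V Vale.Agent.P284.H402.A Vale.Agent.P284.H402.B Vale.Agent.P284.H366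
  Vale.Agent.P284.H639.V Vale.Agent.P284.H913.V Vale.Agent.P284.H650

section
variable {n q : ℕ} {Γ : Type} [Group Γ] {C : Coc n Γ} {P : PU C} {K : KM C} {θ : HF C q}
  (D : MD C) {U : Ultrafilter ℕ} {f : ℕ → Γ → C.I → Cm n → ℝ} (hf : ∀ k, IsTst C (f k))

theorem nS_equiv {p : ℕ} {F : ℕ → TForm C p} (h : TSeq U F) (G : Matrix (Fin n) (Fin n) ℂ)
    (g γ : Γ) (a : C.I) {z : Cm n} (hz : z ∈ D.Q a) :
    nS G (LimS D U F (g * γ) a z) = nS G (LimS D U F γ a z) := by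
  simp only [nS, LimS_equiv D h g γ a hz, LinearIsometryEquiv.inner_map_map]

theorem nS_one {p : ℕ} {F : ℕ → TForm C p} (h : TSeq U F) (G : Matrix (Fin n) (Fin n) ℂ)
    (γ : Γ) (a : C.I) {z : Cm n} (hz : z ∈ D.Q a) :
    nS G (LimS D U F γ a z) = nS G (LimS D U F 1 a z) := by
  have h1 := nS_equiv D h G γ 1 a hz
  rwa [mul_one] at h1

theorem rhoL_nonneg (a : C.I) {z : Cm n} (hz : z ∈ D.Q a) : 0 ≤ rhoL K θ D U hf a z := by
  obtain ⟨R, T, hR, -, -⟩ := exists_R (w_pos K (Q_sub_Ω D a hz))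
  rw [rhoL, hR]
  exact nS_nonneg R _

theorem rhoL_cont (hT : TSeq U fun k => tf θ (hf k)) (a : C.I) :
    ContinuousOn (rhoL K θ D U hf a) (D.Q a) := by
  have hc : ∀ J, ContinuousOn (fun z => LimS D U (fun k => tf θ (hf k)) 1 a z (eJ J)) (D.Q a) := by
    intro J z hz
    have h1 := (LimS_analyticAt D hT 1 a hz).continuousAt
    have h2 : ContinuousAt (fun z => LimS D U (fun k => tf θ (hf k)) 1 a z (eJ J)) z :=
      ((ContinuousAlternatingMap.apply ℂ (Cm n) (WU Γ U) (eJ J)).continuous.continuousAt).comp h1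
    exact h2.continuousWithinAt
  unfold rhoL nS pr
  refine Complex.continuous_re.comp_continuousOn (continuousOn_const.mul ?_)
  refine continuousOn_finsetSum _ fun J _ => continuousOn_finsetSum _ fun J' _ => ?_
  exact ((prod_cont K a J J').mono (Q_sub_Ω D a)).mul ((hc J).inner (hc J'))

theorem rhoL_compat (hT : TSeq U fun k => tf θ (hf k)) (a b : C.I) (z : Cm n) (hO : z ∈ C.O a b)
    (hz : z ∈ D.Q a) (hz' : C.T a b z ∈ D.Q b) :
    rhoL K θ D U hf a z = rhoL K θ D U hf b (C.T a b z) := by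
  obtain ⟨R, T, hR, -, -⟩ := exists_R (w_pos K (Q_sub_Ω D a hz))
  have h1 := nS_comp R (jac C a b z) (fderiv ℂ (C.T a b) z)
    (fun v => (jac_mulVec hO v).symm) (LimS D U (fun k => tf θ (hf k)) (1 * C.κ a b z) b (C.T a b z))
  rw [← hR, inv_K K hO, ← LimS_change D hT 1 a b hO hz hz'] at h1
  rw [rhoL, h1, nS_one D hT _ _ b hz', rhoL]

theorem diag_le (K : KM C) {a : C.I} {z : Cm n} (hz : z ∈ C.Ω a) (j : Fin n) :
    (K.w a z j j).re ≤ K.Lam := by
  have h1 := K.up a z hz (Pi.single j 1)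
  have h2 : (∑ i, ∑ k, K.w a z i k * (Pi.single j 1 : Cm n) i * conj ((Pi.single j 1 : Cm n) k)) =
      K.w a z j j := by
    rw [Finset.sum_eq_single j, Finset.sum_eq_single j]
    · simp
    · intro k _ hk
      simp [hk]
    · simp
    · intro i _ hi
      refine Finset.sum_eq_zero fun k _ => ?_
      simp [Pi.single_apply, hi]
    · simp
  have h3 : ∑ i, ‖(Pi.single j 1 : Cm n) i‖ ^ 2 = 1 := by
    rw [Finset.sum_eq_single j]
    · simp
    · intro i _ hi
      simp [hi]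
    · simp
  rw [h2, h3, mul_one] at h1
  exact h1

theorem LimS_le (hT : TSeq U fun k => tf θ (hf k)) (K : KM C) (γ : Γ) (a : C.I) {z : Cm n}
    (hz : z ∈ D.Q a) :
    ‖LimS D U (fun k => tf θ (hf k)) γ a z‖ ^ 2 ≤
      ((n : ℝ) ^ (q + 1) * (n : ℝ) ^ (q + 1) * (K.Lam ^ (q + 1) * ((q + 1).factorial : ℝ))) *
        rhoL K θ D U hf a z := by
  have hz' := Q_sub_Ω D a hz
  obtain ⟨R, T, hR, hTR, hd⟩ := exists_R (w_pos K hz')
  have h1 := norm_sq_le hTR (fun j => (hd j).trans_le (diag_le K hz' j))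
    (LimS D U (fun k => tf θ (hf k)) γ a z)
  rw [← hR, nS_one D hT _ _ a hz] at h1
  exact h1

variable {F : Γ → C.I → Cm n → Cm q}

theorem lim_int (hT : TSeq U fun k => tf θ (hf k)) (hF : HolF C F) {c : Γ → Cm q}
    (heq : ∀ g γ a, ∀ z ∈ C.Ω a, F (g * γ) a z = F γ a z + c g)
    (hPD : ∀ a, P.K a ⊆ D.Q a) {ψ : Cm q → ℝ} (hψ : Continuous ψ)
    (hper : ∀ g t, ψ (t + c g) = ψ t) :
    Tendsto (fun k => Int P K (fun γ a z => ψ (F γ a z) * vA K θ 0 (f k) (f k) γ a z)) U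
      (𝓝 (∑ a, ∫ z in D.Q a, P.χ a a z * (rhoL K θ D U hf a z * ψ (F 1 a z)) *
        vol (K.w a) z)) := by
  have e1 : ∀ k, Int P K (fun γ a z => ψ (F γ a z) * vA K θ 0 (f k) (f k) γ a z) =
      Int P K (fun γ a z => ψ (F 1 a z) * vA K θ 0 (f k) (f k) γ a z) := by
    intro k
    unfold Vale.Agent.P284.H894.V.Int
    refine tsum_congr fun γ => Finset.sum_congr rfl fun a _ => ?_
    refine setIntegral_congr_fun (s := C.V a) measurableSet_ball fun z hz => ?_
    simp only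
    have h1 := heq γ 1 a z (H639.V.V_sub_Ω C a hz)
    rw [mul_one] at h1
    rw [h1, hper]
  have h2 := tendsto_finsetSum (Finset.univ : Finset C.I) fun a _ =>
    lim_piece (K := K) D hf hT a (φ := fun z => P.χ a a z * ψ (F 1 a z) * vol (K.w a) z)
      (((chi_cont P a a).mul (hψ.comp_continuousOn (hF.hol 1 a).continuousOn)).mul (vol_cont K a))
  have e2 : (∑ a, ∫ z in D.Q a, P.χ a a z * (rhoL K θ D U hf a z * ψ (F 1 a z)) *
        vol (K.w a) z) =
      ∑ a, ∫ z in D.Q a, P.χ a a z * ψ (F 1 a z) * vol (K.w a) z * rhoL K θ D U hf a z := by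
    refine Finset.sum_congr rfl fun a _ => ?_
    refine setIntegral_congr_fun (D.Q_open a).measurableSet fun z _ => ?_
    ring
  rw [e2]
  refine h2.congr fun k => ?_
  rw [e1, Int_swap (h := fun a z => ψ (F 1 a z)) (fam_vA (hf k) (hf k) K θ 0)]
  refine Finset.sum_congr rfl fun a _ => tsum_congr fun γ => ?_
  symm
  refine setIntegral_eq_of_subset_of_forall_sdiff_eq_zero (t := C.V a) (s := D.Q a)
    measurableSet_ball (D.Q_sub a) fun z hz => ?_
  by_cases h3 : P.χ a a z = 0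
  · rw [h3, zero_mul, zero_mul, zero_mul]
  · have h4 := P.supp a a z (H639.V.V_sub_Ω C a hz.1) h3
    rw [C.T_self a z h4.1] at h4
    exact absurd (hPD a h4.2) hz.2

/-- **FLAT-LIM**: the push-forward of `‖S‖²`, `S` the limit of the test forms
`θ_1 ∧ … ∧ θ_q ∧ ∂f_k` of energy `1`, is dominated by Lebesgue measure. -/
theorem push_lim (hT : TSeq U fun k => tf θ (hf k)) (hF : HolF C F) {c : Γ → Cm q}
    (heq : ∀ g γ a, ∀ z ∈ C.Ω a, F (g * γ) a z = F γ a z + c g)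
    (hfin : ∀ R : ℝ, {v : Cm q | (∃ g, c g = v) ∧ ‖v‖ ≤ R}.Finite)
    (hco : ∃ R : ℝ, ∀ t : Cm q, ∃ g, ‖t - c g‖ ≤ R)
    (hS : FlatSeq P K θ F U f) (hone : ∀ k, en P K θ 0 (f k) (f k) = 1)
    (hPD : ∀ a, P.K a ⊆ D.Q a) :
    ∃ A : ℝ≥0∞, A ≠ ⊤ ∧ ∀ (g : Γ) (a : C.I) (s : Cm q → ℝ≥0∞), Measurable s →
      ∫⁻ z in D.Q a, s (F g a z) * ‖LimS D U (fun k => tf θ (hf k)) g a z‖ₑ ^ 2 ≤
        A * ∫⁻ y, s y := by
  refine flat_push (P := P) (K := K) (θ := θ) hF heq hfin hco hS D.Q_open D.W_sub D.Q_sub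
    (fun a z hz h3 => ?_) (fun a => rhoL_cont D hf hT a) (fun a z hz => rhoL_nonneg D hf a hz)
    (fun a b z hO hz hz' => rhoL_compat D hf hT a b z hO hz hz') (fun ψ hψ hper => ?_)
    (fun γ a z hz => LimS_le D hf hT K γ a hz)
  · have h4 := P.supp a a z (H639.V.V_sub_Ω C a hz) h3
    rw [C.T_self a z h4.1] at h4
    exact hPD a h4.2
  · have h1 := lim_int (P := P) (K := K) D hf hT hF heq hPD hψ hper
    simpa only [hone, div_one] using h1

end

end Vale.Agent.P284.H15.FL
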